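import Vale.Agent.P073.Cone.Approx

/-!
# Mollifications close in `W^{1,p}`
-/

namespace Vale.Agent.P073

open MeasureTheory Metric Set Function Filter
open scoped ContDiff Topology ENNReal

set_option linter.unusedSectionVars false

variable {E : Type*} [NormedAddCommGroup E] [InnerProductSpace ℝ E] [FiniteDimensional ℝ E]
  [MeasureSpace E] [BorelSpace E] [(volume : Measure E).IsAddHaarMeasure] [Nontrivial E]

/-- The mollifications with small multiples of a radius are close in `W^{1,p}`. -/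
theorem exists_mollify_close {Ω : Set E} (hΩ : IsOpen Ω) (hΩb : Bornology.IsBounded Ω)
    {f : E → E} (hfc : ContinuousOn f Ω)
    {p : ℝ≥0∞} (hp : 1 ≤ p) (hp' : p ≠ ⊤) {G : E → E →L[ℝ] E} (hS : HasSobolevDeriv Ω p f G)
    {ρ : E → ℝ} (hs : ContDiff ℝ ∞ ρ) (hle : ∀ y, ρ y ≤ 1) (hgrad : ∀ y, ‖fderiv ℝ ρ y‖ ≤ 1 / 4)
    (hpos : ∀ x ∈ Ω, 0 < ρ x) (hinside : ∀ x ∈ Ω, closedBall x (ρ x) ⊆ Ω)
    {δ : ℝ≥0∞} (hδ : 0 < δ) :
    ∃ ε : ℝ, 0 < ε ∧ ε ≤ 1 ∧
      eLpNorm (fun x => mollify (fun y => ε * ρ y) (Ω.indicator f) x - f x) p (volume.restrict Ω) +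
        eLpNorm (fun x => fderiv ℝ (mollify (fun y => ε * ρ y) (Ω.indicator f)) x - G x) p
          (volume.restrict Ω) < δ := by
  classical
  obtain ⟨hfp, hGp, hweak⟩ := hS
  have hfin : IsFiniteMeasure (volume.restrict Ω) := ⟨by
    rw [Measure.restrict_apply_univ]; exact hΩb.measure_lt_top⟩
  obtain ⟨G₀, hG₀m, hGae⟩ : ∃ G₀, StronglyMeasurable G₀ ∧ G =ᵐ[volume.restrict Ω] G₀ :=
    ⟨_, hGp.1.stronglyMeasurable_mk, hGp.1.ae_eq_mk⟩
  have hG₀p : MemLp G₀ p (volume.restrict Ω) := hGp.ae_eq hGae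
  set u := Ω.indicator f with hu
  set Gi := Ω.indicator G₀ with hGi
  have hum : StronglyMeasurable u := by
    have h := hfc.measurable_piecewise (g := fun _ => (0 : E)) continuousOn_const hΩ.measurableSet
    rw [← Set.piecewise_eq_indicator] at hu
    rw [hu]
    exact h.stronglyMeasurable
  have hGim : StronglyMeasurable Gi := hG₀m.indicator hΩ.measurableSet
  have hup : MemLp u p := (memLp_indicator_iff_restrict hΩ.measurableSet).2 hfp
  have hGip : MemLp Gi p := (memLp_indicator_iff_restrict (f := G₀) hΩ.measurableSet).2 hG₀p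
  have hG₀i : IntegrableOn G₀ Ω := hG₀p.integrable hp
  have hui : Integrable u :=
    IntegrableOn.integrable_indicator (f := f) (hfp.integrable hp) hΩ.measurableSet
  have hGii : Integrable Gi := by
    refine Integrable.mono' (IntegrableOn.integrable_indicator (f := fun z => ‖G₀ z‖)
      (Integrable.norm hG₀i) hΩ.measurableSet) hGim.aestronglyMeasurable
      (Eventually.of_forall fun z => ?_)
    by_cases hz : z ∈ Ω <;> simp [Gi, hz]
  have hweak₀ : ∀ ψ : E → ℝ, ContDiff ℝ ∞ ψ → HasCompactSupport ψ → tsupport ψ ⊆ Ω → ∀ h : E,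
      ∫ x in Ω, fderiv ℝ ψ x h • f x = -∫ x in Ω, ψ x • G₀ x h := by
    intro ψ h1 h2 h3 h
    rw [hweak ψ h1 h2 h3 h]
    congr 1
    refine integral_congr_ae ?_
    filter_upwards [hGae] with x hx
    rw [hx]
  have hT1 := tendsto_oscMean hΩ.measurableSet hΩb hs hgrad hpos hle hum hui hp hp'
    hup
  have hT2 := tendsto_oscMean hΩ.measurableSet hΩb hs hgrad hpos hle hGim hGii hp
    hp' hGip
  set A := eLpNorm Gi p (volume.restrict Ω)
  have hAtop : A ≠ ⊤ :=
    ((eLpNorm_mono_measure _ Measure.restrict_le_self).trans_lt hGip.2).ne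
  have h0 : Tendsto (fun ε : ℝ => ENNReal.ofReal ε) (𝓝[>] (0 : ℝ)) (𝓝 0) := by
    simpa using (ENNReal.continuous_ofReal.tendsto (0 : ℝ)).mono_left nhdsWithin_le_nhds
  have hlim : Tendsto (fun ε : ℝ => eLpNorm (oscMean (fun y => ε * ρ y) u) p (volume.restrict Ω) +
      (2 * eLpNorm (oscMean (fun y => ε * ρ y) Gi) p (volume.restrict Ω) + ENNReal.ofReal ε * A))
      (𝓝[>] (0 : ℝ)) (𝓝 0) := by
    have h2 := ENNReal.Tendsto.const_mul (a := (2 : ℝ≥0∞)) hT2 (Or.inr (by norm_num))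
    have h3 := ENNReal.Tendsto.mul_const (b := A) h0 (Or.inr hAtop)
    simpa using hT1.add (h2.add h3)
  obtain ⟨ε, hεd, hε0, hε1⟩ :=
    ((hlim.eventually (gt_mem_nhds hδ)).and (Ioo_mem_nhdsGT (zero_lt_one' ℝ))).exists
  set σ := fun y => ε * ρ y with hσdef
  have hσs : ContDiff ℝ ∞ σ := contDiff_const.mul hs
  have hσp : ∀ x ∈ Ω, 0 < σ x := fun x hx => mul_pos hε0 (hpos x hx)
  refine ⟨ε, hε0, hε1.le, lt_of_le_of_lt ?_ hεd⟩
  refine add_le_add (eLpNorm_mono_ae (ae_restrict_of_forall_mem hΩ.measurableSet fun x hx => ?_)) ?_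
  · rw [Real.norm_of_nonneg (oscMean_nonneg _ _ _), show f x = u x from
      (indicator_of_mem hx f).symm]
    exact norm_mollify_sub_le hui (hσp x hx)
  -- the derivatives
  have hd : ∀ x ∈ Ω, ‖fderiv ℝ (mollify σ u) x - Gi x‖ ≤
      2 * oscMean σ Gi x + ε * ‖Gi x‖ := fun x hx =>
    norm_fderiv_mollify_sub_le hΩ hσs hε0 hε1.le
      (fun y => norm_fderiv_scale_le' hs hgrad hε0 y) hui hG₀i hGii hweak₀ (hσp x hx)
      ((closedBall_subset_closedBall (by
        simp only [σ]; nlinarith [hpos x hx])).trans (hinside x hx))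
  have hb : ∀ᵐ x ∂volume.restrict Ω, ‖fderiv ℝ (mollify σ u) x - G x‖ ≤
      ‖2 * oscMean σ Gi x + ε * ‖Gi x‖‖ := by
    filter_upwards [hGae, ae_restrict_mem hΩ.measurableSet] with x hx hxΩ
    rw [hx, show G₀ x = Gi x from (indicator_of_mem hxΩ G₀).symm]
    exact (hd x hxΩ).trans (le_abs_self _)
  refine (eLpNorm_mono_ae hb).trans ?_
  refine (eLpNorm_add_le ((stronglyMeasurable_oscMean hσs.continuous hGim).const_mul 2
    ).aestronglyMeasurable (hGim.norm.const_mul ε).aestronglyMeasurable hp).trans (add_le_add ?_ ?_)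
  · rw [show (fun x => 2 * oscMean σ Gi x) = (2 : ℝ) • oscMean σ Gi from rfl, eLpNorm_const_smul]
    simp [Real.enorm_eq_ofReal]
  · rw [show (fun x => ε * ‖Gi x‖) = ε • fun x => ‖Gi x‖ from rfl, eLpNorm_const_smul, eLpNorm_norm,
      Real.enorm_eq_ofReal hε0.le]

end Vale.Agent.P073
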