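import Vale.Agent.P073.Shear.Mean
import Vale.Agent.P073.Shear.Close
import Vale.Agent.P073.Cone.Inj

/-!
# Sobolev homeomorphisms moving points in one direction are diffeomorphically approximable
-/

namespace Vale.Agent.P073

open MeasureTheory Metric Set Function Filter
open scoped ContDiff Topology ENNReal RealInnerProductSpace

set_option linter.unusedSectionVars false

variable {E : Type} [NormedAddCommGroup E] [InnerProductSpace ℝ E] [FiniteDimensional ℝ E]
  [MeasureSpace E] [BorelSpace E] [(volume : Measure E).IsAddHaarMeasure] [Nontrivial E]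

/-- The mean of `F` over the segments `x + [-σ x, σ x] • e`. -/
noncomputable def segAverage (σ : E → ℝ) (e : E) (F : E → E) (x : E) : E :=
  ∫ s, F (x + σ x • (s • e)) ∂segMeasure

theorem segAverage_spec {Ω : Set E} (hΩ : IsOpen Ω) {σ : E → ℝ} (hσ : ContDiff ℝ ∞ σ)
    (hin : ∀ x ∈ Ω, closedBall x (σ x) ⊆ Ω) (hσ0 : ∀ x ∈ Ω, 0 ≤ σ x) {e : E} (he : ‖e‖ = 1)
    {F : E → E} (hF : ContDiffOn ℝ ∞ F Ω) :
    ContDiffOn ℝ ∞ (segAverage σ e F) Ω ∧ ∀ x ∈ Ω,
      Integrable (fun s : ℝ => (fderiv ℝ F (x + σ x • (s • e))).comp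
        (ContinuousLinearMap.id ℝ E + (fderiv ℝ σ x).smulRight (s • e))) segMeasure ∧
      HasFDerivAt (segAverage σ e F) (∫ s : ℝ, (fderiv ℝ F (x + σ x • (s • e))).comp
        (ContinuousLinearMap.id ℝ E + (fderiv ℝ σ x).smulRight (s • e)) ∂segMeasure) x := by
  set T : E × ℝ → E := fun q => q.1 + σ q.1 • (q.2 • e) with hT
  have hTs : ContDiff ℝ ∞ T :=
    contDiff_fst.add ((hσ.comp contDiff_fst).smul (contDiff_snd.smul contDiff_const))
  set W := T ⁻¹' Ω
  have hW : IsOpen W := hΩ.preimage hTs.continuous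
  have hG : ContDiffOn ℝ ∞ (F ∘ T) W := hF.comp hTs.contDiffOn fun q hq => hq
  have hUW : ∀ x ∈ Ω, ∀ s ∈ Icc (-1 : ℝ) 1, (x, s) ∈ W := by
    intro x hx s hs
    refine hin x hx ?_
    rw [mem_closedBall, dist_eq_norm]
    simp only [T, add_sub_cancel_left, norm_smul, he, mul_one,
      Real.norm_of_nonneg (hσ0 x hx), Real.norm_eq_abs]
    exact mul_le_of_le_one_right (hσ0 x hx) (abs_le.2 hs)
  refine ⟨contDiffOn_segIntegral hW hΩ hUW hG, fun x hx => ?_⟩
  obtain ⟨hi, hd⟩ := hasFDerivAt_segIntegral hW hΩ hUW (hG.of_le (by simp)) hx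
  have heq : (fun s => (fderiv ℝ (F ∘ T) (x, s)).comp (ContinuousLinearMap.inl ℝ E ℝ)) =ᵐ[segMeasure]
      fun s => (fderiv ℝ F (x + σ x • (s • e))).comp
        (ContinuousLinearMap.id ℝ E + (fderiv ℝ σ x).smulRight (s • e)) := by
    filter_upwards [ae_segMeasure_mem] with s hs
    have hmem := hUW x hx s hs
    have h1 : HasFDerivAt (fun y => F (T (y, s)))
        ((fderiv ℝ (F ∘ T) (x, s)).comp (ContinuousLinearMap.inl ℝ E ℝ)) x :=
      (((hG.differentiableOn (by simp)).differentiableAt (hW.mem_nhds hmem)).hasFDerivAt).comp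
        (f := fun y : E => (y, s)) x (hasFDerivAt_prodMk_left x s)
    have h2 : HasFDerivAt (fun y : E => y + σ y • (s • e))
        (ContinuousLinearMap.id ℝ E + (fderiv ℝ σ x).smulRight (s • e)) x :=
      (hasFDerivAt_id x).add (((hσ.differentiable (by simp)) x).hasFDerivAt.smul_const (s • e))
    have h3 := (((hF.differentiableOn (by simp)).differentiableAt
      (hΩ.mem_nhds hmem)).hasFDerivAt).comp x h2
    exact h1.unique h3
  exact ⟨hi.congr heq, hd.congr_fderiv (integral_congr_ae heq)⟩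

/-- The mean oscillation along segments controls a segment average of an approximation. -/
theorem enorm_integral_sub_le_line {V : Type} [NormedAddCommGroup V] [NormedSpace ℝ V]
    [CompleteSpace V] {A : ℝ → V} (hA : Integrable A segMeasure) {σ : E → ℝ} (hσ : Continuous σ)
    {e x : E} {W : Type} [NormedAddCommGroup W] {v w : E → W} (hv : StronglyMeasurable v)
    (hw : StronglyMeasurable w) (b : V) (k c : ℝ≥0∞)
    (hle : ∀ s ∈ Icc (-1 : ℝ) 1, ‖A s - b‖ₑ ≤
      k * ‖w (x + σ x • (s • e))‖ₑ + k * ‖v (x + σ x • (s • e)) - v x‖ₑ + c) :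
    ‖(∫ s, A s ∂segMeasure) - b‖ₑ ≤ k * lineMean σ e w x + k * lineOsc σ e v x + c := by
  have h1 : (∫ s, A s ∂segMeasure) - b = ∫ s, (A s - b) ∂segMeasure := by
    rw [integral_sub hA (integrable_const b), integral_const]; simp
  rw [h1]
  refine (enorm_integral_le_lintegral_enorm _).trans ?_
  refine (lintegral_mono_ae (ae_segMeasure_mem.mono hle)).trans (le_of_eq ?_)
  have hT : Measurable fun s : ℝ => x + σ x • (s • e) := by fun_prop
  have m1 : Measurable fun s : ℝ => k * ‖w (x + σ x • (s • e))‖ₑ :=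
    ((hw.comp_measurable hT).enorm).const_mul k
  have m2 : Measurable fun s : ℝ => k * ‖v (x + σ x • (s • e)) - v x‖ₑ :=
    (((hv.comp_measurable hT).sub stronglyMeasurable_const).enorm).const_mul k
  have m1' : Measurable fun s : ℝ => ‖w (x + σ x • (s • e))‖ₑ := (hw.comp_measurable hT).enorm
  have m2' : Measurable fun s : ℝ => ‖v (x + σ x • (s • e)) - v x‖ₑ :=
    ((hv.comp_measurable hT).sub stronglyMeasurable_const).enorm
  rw [lintegral_add_right _ measurable_const, lintegral_add_left m1,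
    lintegral_const_mul _ m1', lintegral_const_mul _ m2',
    lintegral_const, measure_univ, mul_one]
  rfl

theorem eLpNorm_const_mul_ennreal_le {φ : E → ℝ≥0∞} {k : ℝ≥0∞} (hk : k ≠ ⊤) {p : ℝ≥0∞}
    {μ : Measure E} : eLpNorm (fun x => k * φ x) p μ ≤ k * eLpNorm φ p μ := by
  lift k to NNReal using hk
  have h := eLpNorm_le_nnreal_smul_eLpNorm_of_ae_le_mul' (μ := μ) (f := fun x => (k : ℝ≥0∞) * φ x)
    (g := φ) (c := k) (Eventually.of_forall fun x => by simp [enorm_eq_self]) p
  simpa [ENNReal.smul_def] using h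

/-- A homeomorphism which moves points only along `e`, increasingly, is approximable. -/
theorem isApproximable_of_shear_increasing {Ω Λ : Set E} (hΩ : IsOpen Ω) (hΩc : IsConnected Ω)
    (hΩb : Bornology.IsBounded Ω) (hΛ : IsOpen Λ) (hΛb : Bornology.IsBounded Λ) {f g : E → E}
    (hbij : BijOn f Ω Λ) (hinv : InvOn g f Ω Λ) (hfc : ContinuousOn f Ω) (hgc : ContinuousOn g Λ)
    {p : ℝ≥0∞} (hp : 1 ≤ p) (hp' : p ≠ ⊤) {G : E → E →L[ℝ] E} (hS : HasSobolevDeriv Ω p f G)
    {e : E} (he : ‖e‖ = 1) (hshear : ∀ x ∈ Ω, ∃ a : ℝ, f x = x + a • e)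
    (hmono : ∀ x r, closedBall x r ⊆ Ω →
      StrictMonoOn (fun b : ℝ => ⟪e, f (x + b • e)⟫) (Icc (-r) r)) :
    IsDiffeoApproximable Ω Λ p f G := by
  classical
  intro δ hδ
  obtain ⟨hfp, hGp, hweak⟩ := hS
  obtain ⟨G₀, hG₀m, hGae⟩ : ∃ G₀, StronglyMeasurable G₀ ∧ G =ᵐ[volume.restrict Ω] G₀ :=
    ⟨_, hGp.1.stronglyMeasurable_mk, hGp.1.ae_eq_mk⟩
  set u := Ω.indicator f with hu
  set Gi := Ω.indicator G₀ with hGi
  have hum : StronglyMeasurable u := by
    have h := hfc.measurable_piecewise (g := fun _ => (0 : E)) continuousOn_const hΩ.measurableSet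
    rw [← Set.piecewise_eq_indicator] at hu
    rw [hu]
    exact h.stronglyMeasurable
  have hGim : StronglyMeasurable Gi := hG₀m.indicator hΩ.measurableSet
  have hup : MemLp u p := (memLp_indicator_iff_restrict hΩ.measurableSet).2 hfp
  have hGip : MemLp Gi p :=
    (memLp_indicator_iff_restrict (f := G₀) hΩ.measurableSet).2 (hGp.ae_eq hGae)
  have hfin : IsFiniteMeasure (volume.restrict Ω) := ⟨by
    rw [Measure.restrict_apply_univ]; exact hΩb.measure_lt_top⟩
  have hui : Integrable u :=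
    IntegrableOn.integrable_indicator (f := f) (hfp.integrable hp) hΩ.measurableSet
  have hgm : MapsTo g Λ Ω := fun w hw => by
    obtain ⟨x, hx, rfl⟩ := hbij.surjOn hw
    rwa [hinv.1 hx]
  -- radii
  obtain ⟨q₁, hq₁c, hq₁l, hq₁0, hq₁P⟩ := exists_lipschitz_radius (fun x r => closedBall x r ⊆ Ω)
    (fun x y r s hP _ hle => (closedBall_subset_closedBall'
      (by rw [dist_comm]; linarith)).trans hP)
    fun x hx => (nhds_basis_closedBall.mem_iff.1 (hΩ.mem_nhds hx))
  obtain ⟨q₂, hq₂c, hq₂l, hq₂0, hq₂P⟩ := exists_osc_radius hΛ hgc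
    (φ := fun a => q₁ a / 4) (hq₁c.div_const 4).continuousOn
    fun w hw => by have := hq₁0 _ (hgm hw); positivity
  obtain ⟨q₃, hq₃c, -, hq₃0, hq₃P⟩ := exists_osc_radius hΩ hfc
    (φ := fun a => q₂ a / 8) (hq₂c.div_const 8).continuousOn
    fun x hx => by have := hq₂0 _ (hbij.mapsTo hx); positivity
  obtain ⟨σ₀, hσ₀s, hσ₀1, hσ₀g, hσ₀0, hσ₀m⟩ := exists_smooth_radius hΩ hΩc.nonempty
    (m := fun x => min (q₁ x / 4) (q₃ x)) ((hq₁c.div_const 4).min hq₃c).continuousOn
    fun x hx => lt_min (by have := hq₁0 x hx; positivity) (hq₃0 x hx)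
  -- the segment length
  have hT1 := tendsto_lineOsc hΩ.measurableSet hΩb hσ₀s hσ₀g hσ₀0 hσ₀1 he.le hum hp hp' hup
  have hT2 := tendsto_lineOsc hΩ.measurableSet hΩb hσ₀s hσ₀g hσ₀0 hσ₀1 he.le hGim hp hp' hGip
  set A := eLpNorm Gi p (volume.restrict Ω)
  have hAtop : A ≠ ⊤ := ((eLpNorm_mono_measure _ Measure.restrict_le_self).trans_lt hGip.2).ne
  have h0 : Tendsto (fun ε : ℝ => ENNReal.ofReal ε) (𝓝[>] (0 : ℝ)) (𝓝 0) := by
    simpa using (ENNReal.continuous_ofReal.tendsto (0 : ℝ)).mono_left nhdsWithin_le_nhds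
  have hlim : Tendsto (fun ε : ℝ =>
      eLpNorm (lineOsc (fun y => ε * σ₀ y) e u) p (volume.restrict Ω) +
      (2 * eLpNorm (lineOsc (fun y => ε * σ₀ y) e Gi) p (volume.restrict Ω) + ENNReal.ofReal ε * A))
      (𝓝[>] (0 : ℝ)) (𝓝 0) := by
    have h2 := ENNReal.Tendsto.const_mul (a := (2 : ℝ≥0∞)) hT2 (Or.inr (by norm_num))
    have h3 := ENNReal.Tendsto.mul_const (b := A) h0 (Or.inr hAtop)
    simpa using hT1.add (h2.add h3)
  obtain ⟨ε, hεd, hε0, hε1⟩ := ((hlim.eventually (gt_mem_nhds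
    (ENNReal.half_pos hδ.ne'))).and (Ioo_mem_nhdsGT (zero_lt_one' ℝ))).exists
  set σ := fun y => ε * σ₀ y with hσdef
  have hσs : ContDiff ℝ ∞ σ := contDiff_const.mul hσ₀s
  have hσg : ∀ y, ‖fderiv ℝ σ y‖ ≤ ε / 4 := fun y => norm_fderiv_scale_le' hσ₀s hσ₀g hε0 y
  have hσg' : ∀ y, ‖fderiv ℝ σ y‖ ≤ 1 / 4 := fun y => (hσg y).trans (by linarith)
  have hσ0 : ∀ x ∈ Ω, 0 < σ x := fun x hx => mul_pos hε0 (hσ₀0 x hx)
  have hσle : ∀ x ∈ Ω, σ x ≤ min (q₁ x / 4) (q₃ x) := fun x hx =>
    (mul_le_of_le_one_left (hσ₀0 x hx).le hε1.le).trans (hσ₀m x hx).1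
  have hσ1 : ∀ x ∈ Ω, σ x ≤ q₁ x := fun x hx =>
    ((hσle x hx).trans (min_le_left _ _)).trans (by linarith [hq₁0 x hx])
  have hin : ∀ x ∈ Ω, closedBall x (σ x) ⊆ Ω := fun x hx =>
    (closedBall_subset_closedBall (hσ1 x hx)).trans (hq₁P x (hq₁0 x hx))
  -- the margin of monotonicity
  set D : E → ℝ := fun x => ⟪e, f (x + σ x • e)⟫ - ⟪e, f (x + (-σ x) • e)⟫ with hD
  have hDc : ContinuousOn D Ω := by
    have hσc := hσs.continuous
    refine (continuousOn_const.inner (hfc.comp (Continuous.continuousOn (by fun_prop))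
      fun x hx => hin x hx ?_)).sub (continuousOn_const.inner
      (hfc.comp (Continuous.continuousOn (by fun_prop)) fun x hx => hin x hx ?_))
    · simp [mem_closedBall, dist_eq_norm, norm_smul, he, abs_of_pos (hσ0 x hx)]
    · simp [mem_closedBall, dist_eq_norm, norm_smul, he, abs_of_pos (hσ0 x hx)]
  have hDpos : ∀ x ∈ Ω, 0 < D x := fun x hx => sub_pos.2
    (hmono x (σ x) (hin x hx) ⟨le_rfl, by linarith [hσ0 x hx]⟩
      ⟨by linarith [hσ0 x hx], le_rfl⟩ (by linarith [hσ0 x hx]))
  obtain ⟨qD, hqDc, -, hqD0, hqDP⟩ := exists_lipschitz_radius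
    (Ω := Ω) (fun y r => ∀ w ∈ closedBall y r, ∀ x ∈ Ω, dist w x ≤ σ x → r ≤ D x / 16)
    (fun y z r s hP _ hle w hw x hx hwx => le_trans (by linarith [dist_nonneg (x := y) (y := z)])
      (hP w (closedBall_subset_closedBall' (by rw [dist_comm]; linarith) hw) x hx hwx))
    (fun y hy => by
      have h1 := hq₁0 y hy
      obtain ⟨x₀, hx₀, hmin⟩ := (isCompact_closedBall y (q₁ y)).exists_isMinOn
        ⟨y, mem_closedBall_self h1.le⟩ (hDc.mono (hq₁P y h1))
      have hD₀ := hDpos x₀ (hq₁P y h1 hx₀)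
      refine ⟨min (q₁ y / 4) (D x₀ / 16), lt_min (by linarith) (by linarith),
        fun w hw x hx hwx => ?_⟩
      have hwy : dist w y ≤ q₁ y / 4 := (mem_closedBall.1 hw).trans (min_le_left _ _)
      have hmem : x ∈ closedBall y (q₁ y) := by
        rw [mem_closedBall]
        have := (hσle x hx).trans (min_le_left _ _)
        linarith [hq₁l x w, hq₁l w y, dist_triangle x w y, dist_comm x w]
      exact (min_le_right _ _).trans (div_le_div_of_nonneg_right (hmin hmem) (by norm_num)))
  obtain ⟨q₄, hq₄c, -, hq₄0, hq₄P⟩ := exists_osc_radius hΩ hfc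
    (φ := fun v => min (qD (g v)) (q₂ v / 8))
    (ContinuousOn.inf ((hqDc.comp_continuousOn hgc).mono hbij.mapsTo.image_subset)
      (hq₂c.div_const 8).continuousOn)
    fun x hx => lt_min (by rw [hinv.1 hx]; exact hqD0 x hx)
      (by have := hq₂0 _ (hbij.mapsTo hx); positivity)
  obtain ⟨ρ, hρs, hρ1, hρg, hρ0, hρm⟩ := exists_smooth_radius hΩ hΩc.nonempty
    (m := q₄) hq₄c.continuousOn hq₄0
  have hρin : ∀ x ∈ Ω, closedBall x (ρ x) ⊆ Ω := fun x hx =>
    (closedBall_subset_closedBall (hρm x hx).1).trans (hq₄P x (hq₄0 x hx)).1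
  obtain ⟨τ, hτ0, hτ1, hτd⟩ := exists_mollify_close hΩ hΩb hfc hp hp' ⟨hfp, hGp, hweak⟩ hρs hρ1
    hρg hρ0 hρin (δ := δ / 2 / 4) (ENNReal.div_pos (ENNReal.half_pos hδ.ne').ne' (by norm_num))
  set υ := fun y => τ * ρ y with hυ
  have hυs : ContDiff ℝ ∞ υ := contDiff_const.mul hρs
  have hυ0 : ∀ x ∈ Ω, 0 < υ x := fun x hx => mul_pos hτ0 (hρ0 x hx)
  set F := mollify υ u with hFdef
  have hFs : ContDiffOn ℝ ∞ F Ω :=
    (contDiffOn_mollify hυs (fun y => by show τ * ρ y < 2; nlinarith [hρ1 y]) hui).mono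
      fun x hx => hυ0 x hx
  have hυle : ∀ w ∈ Ω, υ w ≤ q₄ w := fun w hw =>
    (mul_le_of_le_one_left (hρ0 w hw).le hτ1).trans (hρm w hw).1
  have hFnear : ∀ w ∈ Ω, dist (F w) (f w) ≤ min (qD w) (q₂ (f w) / 8) := by
    intro w hw
    have hq := hq₄P w (hq₄0 w hw)
    rw [dist_eq_norm, show f w = u w from (indicator_of_mem hw f).symm]
    refine norm_mollify_sub_le_of_forall hui (hυ0 w hw) fun z hz => ?_
    have hz' : z ∈ closedBall w (q₄ w) := closedBall_subset_closedBall (hυle w hw) hz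
    rw [show u w = f w from indicator_of_mem hw f, hu, indicator_of_mem (hq.1 hz'),
      ← dist_eq_norm, dist_comm]
    have := hq.2 w (mem_closedBall_self (hq₄0 w hw).le) z hz'
    rwa [hinv.1 hw] at this
  -- the component orthogonal to `e`
  set P : E →L[ℝ] E := ContinuousLinearMap.id ℝ E - (innerSL ℝ e).smulRight e with hP
  have hPe : ∀ a : ℝ, P (a • e) = 0 := fun a => by
    simp [P, inner_smul_right, real_inner_self_eq_norm_sq, he]
  have hPf : ∀ x ∈ Ω, P (f x) = P x := fun x hx => by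
    obtain ⟨a, ha⟩ := hshear x hx
    rw [ha, map_add, hPe, add_zero]
  have hPF : ∀ x ∈ Ω, P (F x) = P x := by
    intro x hx
    have h1 := mollify_affine (ρ := υ) (hυ0 x hx) P 0 (0 : E)
    simp only [sub_zero, zero_add] at h1
    rw [← h1, hFdef, mollify, ← P.integral_comp_comm (integrable_ker_smul hui x)]
    refine integral_congr_ae (Eventually.of_forall fun z => ?_)
    simp only [map_smul]
    by_cases hz : z ∈ closedBall x (υ x)
    · have hzΩ := (hq₄P x (hq₄0 x hx)).1 (closedBall_subset_closedBall (hυle x hx) hz)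
      rw [hu, indicator_of_mem hzΩ, hPf z hzΩ]
    · rw [mem_closedBall, dist_eq_norm, not_le] at hz
      rw [ker_eq_zero (hυ0 x hx) hz, zero_smul, zero_smul]
  -- the approximant
  obtain ⟨hgs, hgd⟩ := segAverage_spec hΩ hσs hin (fun x hx => (hσ0 x hx).le) he hFs
  set K := segAverage σ e F with hK
  have hTmem : ∀ x ∈ Ω, ∀ s ∈ Icc (-1 : ℝ) 1, x + σ x • (s • e) ∈ closedBall x (σ x) := by
    intro x hx s hs
    rw [mem_closedBall, dist_eq_norm, add_sub_cancel_left, norm_smul, norm_smul, he, mul_one,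
      Real.norm_of_nonneg (hσ0 x hx).le, Real.norm_eq_abs]
    exact mul_le_of_le_one_right (hσ0 x hx).le (abs_le.2 hs)
  have hKi : ∀ x ∈ Ω, Integrable (fun s : ℝ => F (x + σ x • (s • e))) segMeasure := fun x hx =>
    integrable_segMeasure (hFs.continuousOn.comp (Continuous.continuousOn (by fun_prop))
      fun s hs => hin x hx (hTmem x hx s hs))
  have hPK : ∀ x ∈ Ω, P (K x) = P x := by
    intro x hx
    rw [hK, segAverage, ← P.integral_comp_comm (hKi x hx)]
    refine (integral_congr_ae (g := fun _ => P x) ?_).trans (by simp)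
    filter_upwards [ae_segMeasure_mem] with s hs
    rw [hPF _ (hin x hx (hTmem x hx s hs)), smul_smul, map_add, hPe, add_zero]
  have hnear : ∀ x ∈ Ω, dist (K x) (f x) ≤ q₂ (f x) / 3 := by
    intro x hx
    have hq := hq₃P x (hq₃0 x hx)
    have h2 := norm_integral_le_of_norm_le (μ := segMeasure) (g := fun _ => q₂ (f x) / 3)
      (f := fun s : ℝ => F (x + σ x • (s • e)) - f x) (integrable_const _) (by
        filter_upwards [ae_segMeasure_mem] with s hs
        have hw := hin x hx (hTmem x hx s hs)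
        have h3 := hq.2 x (mem_closedBall_self (hq₃0 x hx).le) _
          (closedBall_subset_closedBall ((hσle x hx).trans (min_le_right _ _)) (hTmem x hx s hs))
        have h4 := (hFnear _ hw).trans (min_le_right _ _)
        have h5 := hq₂l (f (x + σ x • (s • e))) (f x)
        rw [← dist_eq_norm]
        rw [dist_comm] at h3
        linarith [dist_triangle (F (x + σ x • (s • e))) (f (x + σ x • (s • e))) (f x),
          hq₂0 _ (hbij.mapsTo hx)])
    rw [integral_sub (hKi x hx) (integrable_const _)] at h2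
    simpa [hK, segAverage, dist_eq_norm] using h2
  have hpos : ∀ x ∈ Ω, 0 < ⟪e, fderiv ℝ K x e⟫ := by
    intro x hx
    obtain ⟨hi, hd⟩ := hgd x hx
    rw [hd.fderiv, ContinuousLinearMap.integral_apply hi, ← integral_inner
      (hi.apply_continuousLinearMap e)]
    have hbmem : ∀ b ∈ Icc (-σ x) (σ x), x + b • e ∈ closedBall x (σ x) := fun b hb => by
      rw [mem_closedBall, dist_eq_norm, add_sub_cancel_left, norm_smul, he, mul_one,
        Real.norm_eq_abs]
      exact abs_le.2 hb
    have key := mean_deriv_pos (h := fun b => ⟪e, F (x + b • e)⟫)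
      (h' := fun b => ⟪e, fderiv ℝ F (x + b • e) e⟫) (H := fun b => ⟪e, f (x + b • e)⟫)
      (c := fderiv ℝ σ x e) (hσ0 x hx)
      (by
        rw [← Real.norm_eq_abs]
        exact ((fderiv ℝ σ x).le_opNorm e).trans (by rw [he, mul_one]; exact hσg' x))
      (hmono x (σ x) (hin x hx))
      (continuousOn_const.inner (hfc.comp (Continuous.continuousOn (by fun_prop))
        fun b hb => hin x hx (hbmem b hb)))
      (fun b hb => by
        have h1 : HasDerivAt (fun b : ℝ => x + b • e) e b := by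
          simpa using ((hasDerivAt_id b).smul_const e).const_add x
        have h2 : HasFDerivAt F (fderiv ℝ F (x + b • e)) (x + b • e) :=
          ((hFs.differentiableOn (by simp)).differentiableAt
            (hΩ.mem_nhds (hin x hx (hbmem b hb)))).hasFDerivAt
        have h3 := h2.comp_hasDerivAt b h1
        exact (innerSL ℝ e).hasFDerivAt.comp_hasDerivAt b h3)
      (continuousOn_const.inner (((hFs.continuousOn_fderiv_of_isOpen hΩ (by simp)).comp
        (Continuous.continuousOn (by fun_prop)) fun b hb => hin x hx (hbmem b hb)).clm_apply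
          continuousOn_const))
      (fun b hb => by
        have hw := hin x hx (hbmem b hb)
        have h1 := (hFnear _ hw).trans (min_le_left _ _)
        have h2 : |⟪e, F (x + b • e) - f (x + b • e)⟫| ≤ dist (F (x + b • e)) (f (x + b • e)) := by
          refine (abs_real_inner_le_norm _ _).trans ?_
          rw [he, one_mul, ← dist_eq_norm]
        rw [inner_sub_right] at h2
        exact (h2.trans h1).trans (hqDP _ (hqD0 _ hw) _ (mem_closedBall_self (hqD0 _ hw).le) x hx
          (mem_closedBall.1 (hbmem b hb))))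
    refine key.trans_eq (integral_congr_ae (Eventually.of_forall fun s => ?_))
    simp only [ContinuousLinearMap.comp_apply, add_apply, ContinuousLinearMap.id_apply,
      ContinuousLinearMap.smulRight_apply, smul_smul, map_add, map_smul, inner_add_right,
      inner_smul_right]
    ring
  have hdiffK : ∀ x ∈ Ω, HasFDerivAt K (fderiv ℝ K x) x := fun x hx =>
    ((hgd x hx).2).differentiableAt.hasFDerivAt
  have hPD : ∀ x ∈ Ω, ∀ h : E, P (fderiv ℝ K x h) = P h := by
    intro x hx h
    have h1 : HasFDerivAt (fun y => P (K y)) (P.comp (fderiv ℝ K x)) x :=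
      P.hasFDerivAt.comp x (hdiffK x hx)
    have h2 : HasFDerivAt (fun y => P (K y)) P x := P.hasFDerivAt.congr_of_eventuallyEq
      (by filter_upwards [hΩ.mem_nhds hx] with y hy; exact hPK y hy)
    exact congrArg (fun L : E →L[ℝ] E => L h) (h1.unique h2)
  have hΛball : ∀ x ∈ Ω, closedBall (f x) (q₂ (f x)) ⊆ Λ := fun x hx =>
    (hq₂P _ (hq₂0 _ (hbij.mapsTo hx))).1
  have hmaps : MapsTo K Ω Λ := fun x hx => hΛball x hx (mem_closedBall.2
    ((hnear x hx).trans (by linarith [hq₂0 _ (hbij.mapsTo hx)])))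
  have hinj : InjOn K Ω := by
    have key : ∀ x ∈ Ω, ∀ y ∈ Ω, K x = K y → q₂ (f y) ≤ q₂ (f x) → x = y := by
      intro x hx y hy hxy hle
      by_contra hne
      have hd : dist (f y) (f x) ≤ q₂ (f x) := by
        have h1 := hnear x hx
        have h2 := hnear y hy
        rw [hxy] at h1
        rw [dist_comm] at h2
        linarith [dist_triangle (f y) (K y) (f x), hq₂0 _ (hbij.mapsTo hx)]
      have h3 := (hq₂P _ (hq₂0 _ (hbij.mapsTo hx))).2 (f x)
        (mem_closedBall_self (hq₂0 _ (hbij.mapsTo hx)).le) (f y) (mem_closedBall.2 hd)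
      rw [hinv.1 hx, hinv.1 hy] at h3
      set a := ⟪e, y - x⟫
      have hya : y - x = a • e := by
        have h4 : P (y - x) = 0 := by rw [map_sub, ← hPK y hy, ← hPK x hx, hxy, sub_self]
        simpa [P, sub_eq_zero] using h4
      have ha : a ≠ 0 := fun h0 => hne (Eq.symm (sub_eq_zero.1 (by rw [hya, h0, zero_smul])))
      have hmem : ∀ r ∈ Icc (0 : ℝ) 1, x + r • (y - x) ∈ Ω := fun r hr => by
        refine hq₁P x (hq₁0 x hx) (mem_closedBall.2 ?_)
        rw [dist_eq_norm, add_sub_cancel_left, norm_smul, Real.norm_of_nonneg hr.1,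
          ← dist_eq_norm, dist_comm]
        linarith [mul_le_of_le_one_left (dist_nonneg (x := x) (y := y)) hr.2, hq₁0 x hx]
      have hseg : ∀ r ∈ Icc (0 : ℝ) 1, HasDerivAt (fun b : ℝ => ⟪e, K (x + b • (y - x))⟫)
          ⟪e, fderiv ℝ K (x + r • (y - x)) (y - x)⟫ r := by
        intro r hr
        have h4 : HasDerivAt (fun b : ℝ => x + b • (y - x)) (y - x) r := by
          simpa using ((hasDerivAt_id r).smul_const (y - x)).const_add x
        have h5 := (hdiffK _ (hmem r hr)).comp_hasDerivAt r h4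
        exact (innerSL ℝ e).hasFDerivAt.comp_hasDerivAt r h5
      obtain ⟨r, hr, heq⟩ := exists_hasDerivAt_eq_slope _ _ zero_lt_one
        (fun r hr => (hseg r hr).continuousAt.continuousWithinAt)
        fun r hr => hseg r (Ioo_subset_Icc_self hr)
      have h5 := hpos _ (hmem r (Ioo_subset_Icc_self hr))
      simp only [one_smul, zero_smul, add_zero, add_sub_cancel, sub_zero, div_one, hxy, sub_self]
        at heq
      rw [hya, map_smul, inner_smul_right, mul_eq_zero] at heq
      rcases heq with heq | heq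
      · exact ha heq
      · rw [← hya] at heq; linarith
    intro x hx y hy hxy
    rcases le_total (q₂ (f y)) (q₂ (f x)) with hle | hle
    · exact key x hx y hy hxy hle
    · exact (key y hy x hx hxy.symm hle).symm
  refine ⟨K, isDiffeo_of_near hΩ hΩc hΛ hΛb hbij hinv hfc hgc hgs hmaps hinj ?_ ?_, ?_⟩
  · intro x hx
    have hinjD : Injective (fderiv ℝ K x) := by
      refine (injective_iff_map_eq_zero _).2 fun h hh => ?_
      have h1 : P h = 0 := by rw [← hPD x hx h, hh, map_zero]
      have h2 : h = ⟪e, h⟫ • e := by simpa [P, sub_eq_zero] using h1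
      rw [h2, map_smul, smul_eq_zero] at hh
      rcases hh with hh | hh
      · rw [h2, hh, zero_smul]
      · have := hpos x hx
        rw [hh, inner_zero_right] at this
        exact absurd this (lt_irrefl _)
    exact ⟨(LinearEquiv.ofBijective (fderiv ℝ K x).toLinearMap
      ⟨hinjD, LinearMap.injective_iff_surjective.1 hinjD⟩).toContinuousLinearEquiv, hdiffK x hx⟩
  · intro x hx
    have hne : (Λᶜ : Set E).Nonempty := by
      rw [nonempty_compl]
      exact fun hu => NormedSpace.unbounded_univ ℝ E (hu ▸ hΛb)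
    suffices h : q₂ (f x) ≤ infDist (f x) Λᶜ by linarith [hnear x hx]
    refine (le_infDist hne).2 fun w hw => ?_
    by_contra hlt
    exact hw (hΛball x hx (mem_closedBall.2 (by rw [dist_comm]; exact (not_le.1 hlt).le)))
  -- the norms
  set w₀ := Ω.indicator fun x => F x - f x with hw₀
  set wD := Ω.indicator fun x => fderiv ℝ F x - G₀ x with hwD
  have hFm : StronglyMeasurable (Ω.indicator F) := by
    rw [← Set.piecewise_eq_indicator]
    exact (hFs.continuousOn.measurable_piecewise (g := fun _ => (0 : E)) continuousOn_const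
      hΩ.measurableSet).stronglyMeasurable
  have hw₀m : StronglyMeasurable w₀ := by
    rw [hw₀, show (fun x => F x - f x) = F - f from rfl, Set.indicator_sub']
    exact hFm.sub hum
  have hwDm : StronglyMeasurable wD :=
    ((measurable_fderiv ℝ F).stronglyMeasurable.sub hG₀m).indicator hΩ.measurableSet
  have hC0 : ∀ x ∈ Ω, ‖K x - f x‖ₑ ≤ ‖lineMean σ e w₀ x + lineOsc σ e u x‖ₑ := by
    intro x hx
    have h := enorm_integral_sub_le_line (hKi x hx) hσs.continuous hum hw₀m (f x) 1 0
      (x := x) (e := e) (fun s hs => by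
        have hw := hin x hx (hTmem x hx s hs)
        rw [hw₀, hu, indicator_of_mem hw, indicator_of_mem hw, indicator_of_mem hx,
          one_mul, one_mul, add_zero]
        exact le_of_eq_of_le (by rw [sub_add_sub_cancel]) (enorm_add_le _ _))
    simpa [enorm_eq_self, hK, segAverage] using h
  have hC1 : ∀ x ∈ Ω, ‖fderiv ℝ K x - G₀ x‖ₑ ≤
      ‖2 * lineMean σ e wD x + (2 * lineOsc σ e Gi x + ENNReal.ofReal ε * ‖Gi x‖ₑ)‖ₑ := by
    intro x hx
    obtain ⟨hi, hd⟩ := hgd x hx
    rw [hd.fderiv, enorm_eq_self, ← add_assoc]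
    refine enorm_integral_sub_le_line hi hσs.continuous hGim hwDm _ 2 _ fun s hs => ?_
    have hw := hin x hx (hTmem x hx s hs)
    rw [hwD, hGi, indicator_of_mem hw, indicator_of_mem hw, indicator_of_mem hx]
    set z := x + σ x • (s • e)
    set M := (fderiv ℝ σ x).smulRight (s • e)
    have hM : ‖M‖ ≤ ε := by
      rw [ContinuousLinearMap.norm_smulRight_apply, norm_smul, he, mul_one]
      refine (mul_le_mul (hσg x) (abs_le.2 hs) (abs_nonneg _) (by linarith)).trans ?_
      linarith
    have hI : ‖ContinuousLinearMap.id ℝ E + M‖ ≤ 2 := (norm_add_le _ _).trans (by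
      linarith [ContinuousLinearMap.norm_id_le (𝕜 := ℝ) (E := E), hε1])
    have hnorm : ‖(fderiv ℝ F z).comp (ContinuousLinearMap.id ℝ E + M) - G₀ x‖ ≤
        2 * ‖fderiv ℝ F z - G₀ z‖ + 2 * ‖G₀ z - G₀ x‖ + ε * ‖G₀ x‖ := by
      have e1 : (fderiv ℝ F z).comp (ContinuousLinearMap.id ℝ E + M) - G₀ x =
          (fderiv ℝ F z - G₀ z).comp (ContinuousLinearMap.id ℝ E + M) +
          (G₀ z - G₀ x).comp (ContinuousLinearMap.id ℝ E + M) + (G₀ x).comp M := by
        simp only [ContinuousLinearMap.comp_add, ContinuousLinearMap.sub_comp,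
          ContinuousLinearMap.comp_id]
        abel
      rw [e1]
      refine norm_add₃_le.trans (add_le_add (add_le_add ?_ ?_) ?_)
      · exact (ContinuousLinearMap.opNorm_comp_le _ _).trans
          (by rw [mul_comm]; exact mul_le_mul_of_nonneg_right hI (norm_nonneg _))
      · exact (ContinuousLinearMap.opNorm_comp_le _ _).trans
          (by rw [mul_comm]; exact mul_le_mul_of_nonneg_right hI (norm_nonneg _))
      · exact (ContinuousLinearMap.opNorm_comp_le _ _).trans
          (by rw [mul_comm]; exact mul_le_mul_of_nonneg_right hM (norm_nonneg _))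
    rw [← ofReal_norm]
    refine (ENNReal.ofReal_le_ofReal hnorm).trans (le_of_eq ?_)
    rw [ENNReal.ofReal_add (by positivity) (by positivity), ENNReal.ofReal_add (by positivity)
      (by positivity), ENNReal.ofReal_mul zero_le_two, ENNReal.ofReal_mul zero_le_two,
      ENNReal.ofReal_mul hε0.le]
    simp [ofReal_norm]
  have hA0 := eLpNorm_mono_enorm_ae (p := p) (ae_restrict_of_forall_mem (μ := volume)
    hΩ.measurableSet hC0)
  have hC1' : ∀ᵐ x ∂volume.restrict Ω, ‖fderiv ℝ K x - G x‖ₑ ≤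
      ‖2 * lineMean σ e wD x + (2 * lineOsc σ e Gi x + ENNReal.ofReal ε * ‖Gi x‖ₑ)‖ₑ := by
    filter_upwards [hGae, ae_restrict_mem hΩ.measurableSet] with x hx hxΩ
    rw [hx]; exact hC1 x hxΩ
  have m1 := (measurable_lineMean hσs.continuous e hw₀m).stronglyMeasurable.aestronglyMeasurable
    (μ := volume.restrict Ω)
  have m2 := (measurable_lineOsc hσs.continuous e hum).stronglyMeasurable.aestronglyMeasurable
    (μ := volume.restrict Ω)
  have m3 := ((measurable_lineMean hσs.continuous e hwDm).const_mul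
    (2 : ℝ≥0∞)).stronglyMeasurable.aestronglyMeasurable (μ := volume.restrict Ω)
  have m4 := ((measurable_lineOsc hσs.continuous e hGim).const_mul
    (2 : ℝ≥0∞)).stronglyMeasurable.aestronglyMeasurable (μ := volume.restrict Ω)
  have m5 := (hGim.enorm.const_mul
    (ENNReal.ofReal ε)).stronglyMeasurable.aestronglyMeasurable (μ := volume.restrict Ω)
  have b0 := eLpNorm_lineMean_le hΩ.measurableSet hσs hσg' he.le hw₀m hp hp'
  have b1 := eLpNorm_lineMean_le hΩ.measurableSet hσs hσg' he.le hwDm hp hp'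
  rw [hw₀, eLpNorm_indicator_eq_eLpNorm_restrict hΩ.measurableSet, ← hw₀] at b0
  rw [hwD, eLpNorm_indicator_eq_eLpNorm_restrict hΩ.measurableSet, ← hwD] at b1
  have hGF : eLpNorm (fun x => fderiv ℝ F x - G₀ x) p (volume.restrict Ω) =
      eLpNorm (fun x => fderiv ℝ F x - G x) p (volume.restrict Ω) := eLpNorm_congr_ae (by
    filter_upwards [hGae] with x hx; rw [hx])
  rw [hGF] at b1
  set X := eLpNorm (fun x => F x - f x) p (volume.restrict Ω)
  set Y := eLpNorm (fun x => fderiv ℝ F x - G x) p (volume.restrict Ω)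
  set a := eLpNorm (lineOsc σ e u) p (volume.restrict Ω)
  set b := eLpNorm (lineOsc σ e Gi) p (volume.restrict Ω)
  have hXY : 4 * (X + Y) ≤ δ / 2 := by
    refine (mul_le_mul_of_nonneg_left hτd.le zero_le).trans (le_of_eq ?_)
    rw [ENNReal.mul_div_cancel (by norm_num) (by norm_num)]
  have htot : eLpNorm (fun x => K x - f x) p (volume.restrict Ω) +
      eLpNorm (fun x => fderiv ℝ K x - G x) p (volume.restrict Ω) ≤
      4 * (X + Y) + (a + (2 * b + ENNReal.ofReal ε * A)) := by
    refine (add_le_add (hA0.trans ((eLpNorm_add_le m1 m2 hp).trans (add_le_add b0 le_rfl)))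
      ((eLpNorm_mono_enorm_ae hC1').trans ((eLpNorm_add_le m3 (m4.add m5) hp).trans
        (add_le_add ?_ ((eLpNorm_add_le m4 m5 hp).trans (add_le_add ?_ ?_)))))).trans
      (b := (2 * X + a) + (2 * (2 * Y) + (2 * b + ENNReal.ofReal ε * A))) ?_
    · exact (eLpNorm_const_mul_ennreal_le (k := 2) (by norm_num)).trans
        (mul_le_mul_of_nonneg_left b1 zero_le)
    · exact eLpNorm_const_mul_ennreal_le (by norm_num)
    · exact (eLpNorm_const_mul_ennreal_le ENNReal.ofReal_ne_top).trans (by rw [eLpNorm_enorm])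
    · calc (2 * X + a) + (2 * (2 * Y) + (2 * b + ENNReal.ofReal ε * A))
          ≤ (2 * X + a) + (2 * X + 2 * (2 * Y) + (2 * b + ENNReal.ofReal ε * A)) := by
            gcongr; exact le_add_self
        _ = 4 * (X + Y) + (a + (2 * b + ENNReal.ofReal ε * A)) := by ring
  have hfin4 : 4 * (X + Y) ≠ ⊤ := ENNReal.mul_ne_top (by norm_num) hτd.ne_top
  exact htot.trans_lt ((ENNReal.add_lt_add_left hfin4 hεd).trans_le
    ((add_le_add hXY le_rfl).trans_eq (ENNReal.add_halves δ)))

end Vale.Agent.P073
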