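import Mathlib

/-!
# Means over a segment: smoothness and the sign of the derivative
-/

namespace Vale.Agent.P073

open MeasureTheory Metric Set Function Filter
open scoped ContDiff Topology ENNReal

/-- The uniform probability measure on `[-1, 1]`. -/
noncomputable def segMeasure : Measure ℝ := (2 : ℝ≥0∞)⁻¹ • volume.restrict (Icc (-1 : ℝ) 1)

instance isProbability_segMeasure : IsProbabilityMeasure segMeasure := by
  constructor
  rw [segMeasure, Measure.smul_apply, Measure.restrict_apply_univ, Real.volume_Icc,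
    show (1 : ℝ) - -1 = 2 by norm_num, ENNReal.ofReal_ofNat, smul_eq_mul,
    ENNReal.inv_mul_cancel (by norm_num) (by norm_num)]

theorem ae_segMeasure_mem : ∀ᵐ s ∂segMeasure, s ∈ Icc (-1 : ℝ) 1 :=
  Measure.ae_smul_measure (ae_restrict_mem measurableSet_Icc) _

theorem integral_segMeasure {F : Type*} [NormedAddCommGroup F] [NormedSpace ℝ F] (h : ℝ → F) :
    ∫ s, h s ∂segMeasure = (2 : ℝ)⁻¹ • ∫ s in (-1 : ℝ)..1, h s := by
  rw [segMeasure, integral_smul_measure, intervalIntegral.integral_of_le (by norm_num),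
    integral_Icc_eq_integral_Ioc]
  norm_num

theorem integrable_segMeasure {F : Type*} [NormedAddCommGroup F] {h : ℝ → F}
    (hh : ContinuousOn h (Icc (-1) 1)) : Integrable h segMeasure :=
  (hh.integrableOn_compact isCompact_Icc).smul_measure (by norm_num)

section param

variable {E : Type} [NormedAddCommGroup E] [NormedSpace ℝ E] [FiniteDimensional ℝ E]

/-- Differentiation of a mean over a segment. -/
theorem hasFDerivAt_segIntegral {F : Type} [NormedAddCommGroup F] [NormedSpace ℝ F]
    [CompleteSpace F] {G : E × ℝ → F} {W : Set (E × ℝ)} (hW : IsOpen W) {U : Set E} (hU : IsOpen U)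
    (hUW : ∀ x ∈ U, ∀ s ∈ Icc (-1 : ℝ) 1, (x, s) ∈ W) (hG : ContDiffOn ℝ 1 G W) {x : E}
    (hx : x ∈ U) :
    Integrable (fun s => (fderiv ℝ G (x, s)).comp (ContinuousLinearMap.inl ℝ E ℝ)) segMeasure ∧
      HasFDerivAt (fun y => ∫ s, G (y, s) ∂segMeasure)
        (∫ s, (fderiv ℝ G (x, s)).comp (ContinuousLinearMap.inl ℝ E ℝ) ∂segMeasure) x := by
  have hcont : ∀ y ∈ U, ContinuousOn
      (fun s => (fderiv ℝ G (y, s)).comp (ContinuousLinearMap.inl ℝ E ℝ)) (Icc (-1) 1) := fun y hy =>
    ContinuousOn.clm_comp ((hG.continuousOn_fderiv_of_isOpen hW le_rfl).comp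
      (Continuous.continuousOn (by fun_prop)) fun s hs => hUW y hy s hs) continuousOn_const
  obtain ⟨r, hr, hsub⟩ := nhds_basis_closedBall.mem_iff.1 (hU.mem_nhds hx)
  have hsub' : closedBall x r ×ˢ Icc (-1 : ℝ) 1 ⊆ W := fun q hq => hUW _ (hsub hq.1) _ hq.2
  obtain ⟨C, hC⟩ := ((isCompact_closedBall x r).prod isCompact_Icc).exists_bound_of_continuousOn
    ((hG.continuousOn_fderiv_of_isOpen hW le_rfl).mono hsub')
  have hi := integrable_segMeasure (hcont x hx)
  refine ⟨hi, hasFDerivAt_integral_of_dominated_of_fderiv_le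
    (bound := fun _ => C * ‖ContinuousLinearMap.inl ℝ E ℝ‖) (closedBall_mem_nhds x hr)
    (F' := fun y s => (fderiv ℝ G (y, s)).comp (ContinuousLinearMap.inl ℝ E ℝ))
    ?_ ?_ hi.1 ?_ (integrable_const _) ?_⟩
  · filter_upwards [hU.mem_nhds hx] with y hy
    exact (integrable_segMeasure (hG.continuousOn.comp (Continuous.continuousOn (by fun_prop))
      fun s hs => hUW y hy s hs)).1
  · exact integrable_segMeasure (hG.continuousOn.comp (Continuous.continuousOn (by fun_prop))
      fun s hs => hUW x hx s hs)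
  · filter_upwards [ae_segMeasure_mem] with s hs y hy
    exact (ContinuousLinearMap.opNorm_comp_le _ _).trans
      (mul_le_mul_of_nonneg_right (hC (y, s) ⟨hy, hs⟩) (norm_nonneg _))
  · filter_upwards [ae_segMeasure_mem] with s hs y hy
    have hd : HasFDerivAt G (fderiv ℝ G (y, s)) (y, s) :=
      ((hG.differentiableOn one_ne_zero).differentiableAt
        (hW.mem_nhds (hUW y (hsub hy) s hs))).hasFDerivAt
    exact hd.comp (f := fun y : E => (y, s)) y (hasFDerivAt_prodMk_left y s)

/-- A mean over a segment of a smooth function is smooth. -/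
theorem contDiffOn_segIntegral_nat {W : Set (E × ℝ)} (hW : IsOpen W) {U : Set E} (hU : IsOpen U)
    (hUW : ∀ x ∈ U, ∀ s ∈ Icc (-1 : ℝ) 1, (x, s) ∈ W) :
    ∀ (n : ℕ) {F : Type} [NormedAddCommGroup F] [NormedSpace ℝ F] [CompleteSpace F]
      {G : E × ℝ → F}, ContDiffOn ℝ n G W →
      ContDiffOn ℝ n (fun y => ∫ s, G (y, s) ∂segMeasure) U := by
  intro n
  induction n with
  | zero =>
    intro F _ _ _ G hG
    rw [Nat.cast_zero, contDiffOn_zero] at hG ⊢
    intro x hx
    obtain ⟨r, hr, hsub⟩ := nhds_basis_closedBall.mem_iff.1 (hU.mem_nhds hx)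
    have hsub' : closedBall x r ×ˢ Icc (-1 : ℝ) 1 ⊆ W := fun q hq => hUW _ (hsub hq.1) _ hq.2
    obtain ⟨C, hC⟩ := ((isCompact_closedBall x r).prod isCompact_Icc).exists_bound_of_continuousOn
      (hG.mono hsub')
    refine (continuousAt_of_dominated (bound := fun _ => C) ?_ ?_ (integrable_const C) ?_
      ).continuousWithinAt
    · filter_upwards [hU.mem_nhds hx] with y hy
      exact (integrable_segMeasure (hG.comp (Continuous.continuousOn (by fun_prop))
        fun s hs => hUW y hy s hs)).1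
    · filter_upwards [closedBall_mem_nhds x hr] with y hy
      filter_upwards [ae_segMeasure_mem] with s hs
      exact hC (y, s) ⟨hy, hs⟩
    · filter_upwards [ae_segMeasure_mem] with s hs
      exact (hG.continuousAt (hW.mem_nhds (hUW x hx s hs))).comp
        (f := fun y : E => (y, s)) (Continuous.continuousAt (by fun_prop))
  | succ n ih =>
    intro F _ _ _ G hG
    have hd : ∀ x ∈ U, HasFDerivAt (fun y => ∫ s, G (y, s) ∂segMeasure)
        (∫ s, (fderiv ℝ G (x, s)).comp (ContinuousLinearMap.inl ℝ E ℝ) ∂segMeasure) x := fun x hx =>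
      (hasFDerivAt_segIntegral hW hU hUW (hG.of_le (by exact_mod_cast Nat.le_add_left 1 n)) hx).2
    have hG' : ContDiffOn ℝ n (fun q => (fderiv ℝ G q).comp (ContinuousLinearMap.inl ℝ E ℝ)) W :=
      (hG.fderiv_of_isOpen hW (by exact_mod_cast le_rfl)).clm_comp contDiffOn_const
    have h := ih hG'
    rw [show (↑(n + 1) : WithTop ℕ∞) = ↑n + 1 by norm_cast, contDiffOn_succ_iff_fderiv_of_isOpen hU]
    refine ⟨fun x hx => (hd x hx).differentiableAt.differentiableWithinAt,
      fun h0 => absurd h0 (by simp), h.congr fun x hx => (hd x hx).fderiv⟩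

theorem contDiffOn_segIntegral {F : Type} [NormedAddCommGroup F] [NormedSpace ℝ F]
    [CompleteSpace F] {W : Set (E × ℝ)} (hW : IsOpen W) {U : Set E} (hU : IsOpen U)
    (hUW : ∀ x ∈ U, ∀ s ∈ Icc (-1 : ℝ) 1, (x, s) ∈ W) {G : E × ℝ → F} (hG : ContDiffOn ℝ ∞ G W) :
    ContDiffOn ℝ ∞ (fun y => ∫ s, G (y, s) ∂segMeasure) U :=
  contDiffOn_infty.2 fun n => contDiffOn_segIntegral_nat hW hU hUW n (contDiffOn_infty.1 hG n)

end param

/-- The mean over segments of variable length of a function close to an increasing one has positive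
derivative. -/
theorem mean_deriv_pos {h h' H : ℝ → ℝ} {t c : ℝ} (ht : 0 < t) (hc : |c| ≤ 1 / 4)
    (hH : StrictMonoOn H (Icc (-t) t)) (hHc : ContinuousOn H (Icc (-t) t))
    (hd : ∀ b ∈ Icc (-t) t, HasDerivAt h (h' b) b) (hc' : ContinuousOn h' (Icc (-t) t))
    (hnear : ∀ b ∈ Icc (-t) t, |h b - H b| ≤ (H t - H (-t)) / 16) :
    0 < ∫ s, h' (t * s) * (1 + c * s) ∂segMeasure := by
  have hmem : ∀ s ∈ Icc (-1 : ℝ) 1, t * s ∈ Icc (-t) t := fun s hs =>
    ⟨by nlinarith [hs.1], by nlinarith [hs.2]⟩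
  have hcs : ContinuousOn (fun s => t * s) (Icc (-1 : ℝ) 1) := Continuous.continuousOn (by fun_prop)
  have hh : ContinuousOn h (Icc (-t) t) := fun b hb => (hd b hb).continuousAt.continuousWithinAt
  have i1 : Integrable (fun s => h (t * s)) segMeasure := integrable_segMeasure (hh.comp hcs hmem)
  have i2 : Integrable (fun s => H (t * s)) segMeasure :=
    integrable_segMeasure (hHc.comp hcs hmem)
  set m := ∫ s, h (t * s) ∂segMeasure with hm
  set M := ∫ s, H (t * s) ∂segMeasure with hM
  set D := H t - H (-t) with hD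
  have hD0 : 0 < D := sub_pos.2 (hH ⟨le_rfl, by linarith⟩ ⟨by linarith, le_rfl⟩ (by linarith))
  have hconst : ∀ a : ℝ, ∫ _s, a ∂segMeasure = a := fun a => by simp
  have hM1 : M ≤ H t := by
    refine (integral_mono_ae i2 (integrable_const (H t)) ?_).trans_eq (hconst _)
    filter_upwards [ae_segMeasure_mem] with s hs
    exact hH.monotoneOn (hmem s hs) ⟨by linarith, le_rfl⟩ (hmem s hs).2
  have hM2 : H (-t) ≤ M := by
    refine (hconst _).symm.trans_le (integral_mono_ae (integrable_const (H (-t))) i2 ?_)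
    filter_upwards [ae_segMeasure_mem] with s hs
    exact hH.monotoneOn ⟨le_rfl, by linarith⟩ (hmem s hs) (hmem s hs).1
  have hmM : |m - M| ≤ D / 16 := by
    have h2 := norm_integral_le_of_norm_le (μ := segMeasure) (g := fun _ => D / 16)
      (f := fun s => h (t * s) - H (t * s)) (integrable_const _) (by
        filter_upwards [ae_segMeasure_mem] with s hs
        exact (Real.norm_eq_abs _).trans_le (hnear _ (hmem s hs)))
    rwa [integral_sub i1 i2, hconst, Real.norm_eq_abs] at h2
  -- integration by parts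
  have hcd : ContinuousOn (fun s => h' (t * s) * (1 + c * s)) (Icc (-1 : ℝ) 1) :=
    (hc'.comp hcs hmem).mul (Continuous.continuousOn (by fun_prop))
  have hder : ∀ s ∈ Icc (-1 : ℝ) 1, HasDerivAt (fun s => h (t * s) * (1 + c * s))
      (t * (h' (t * s) * (1 + c * s)) + c * h (t * s)) s := by
    intro s hs
    have h1 : HasDerivAt (fun s => h (t * s)) (h' (t * s) * t) s :=
      (hd _ (hmem s hs)).comp s (by simpa using (hasDerivAt_id s).const_mul t)
    have h2 : HasDerivAt (fun s => 1 + c * s) c s := by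
      simpa using ((hasDerivAt_id s).const_mul c).const_add 1
    exact (h1.mul h2).congr_deriv (by ring)
  have hcd2 : ContinuousOn (fun s => t * (h' (t * s) * (1 + c * s)) + c * h (t * s))
      (Icc (-1 : ℝ) 1) := (hcd.const_mul t).add ((hh.comp hcs hmem).const_mul c)
  have hftc := intervalIntegral.integral_eq_sub_of_hasDerivAt
    (f := fun s => h (t * s) * (1 + c * s))
    (fun s hs => hder s (by rwa [uIcc_of_le (by norm_num)] at hs))
    (hcd2.intervalIntegrable_of_Icc (by norm_num))
  have key : t * (∫ s, h' (t * s) * (1 + c * s) ∂segMeasure) + c * m =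
      2⁻¹ * (h t * (1 + c) - h (-t) * (1 - c)) := by
    rw [← integral_const_mul, hm, ← integral_const_mul, ← integral_add
      ((integrable_segMeasure hcd).const_mul t) (i1.const_mul c), integral_segMeasure, hftc,
      smul_eq_mul]
    ring_nf
  have ea := abs_le.1 hc
  have e1 := abs_le.1 (hnear t ⟨by linarith, le_rfl⟩)
  have e2 := abs_le.1 (hnear (-t) ⟨le_rfl, by linarith⟩)
  have e3 := abs_le.1 hmM
  have p1 := mul_le_mul_of_nonneg_left (show H t - M - D / 8 ≤ h t - m by linarith)
    (show (0 : ℝ) ≤ 1 + c by linarith)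
  have p2 := mul_le_mul_of_nonneg_left (show M - H (-t) - D / 8 ≤ m - h (-t) by linarith)
    (show (0 : ℝ) ≤ 1 - c by linarith)
  have q1 := mul_nonneg (show 0 ≤ c + 1 / 4 by linarith) (sub_nonneg.2 hM1)
  have q2 := mul_nonneg (show 0 ≤ 1 / 4 - c by linarith) (sub_nonneg.2 hM2)
  by_contra hneg
  have := mul_nonpos_of_nonneg_of_nonpos ht.le (not_lt.1 hneg)
  nlinarith

end Vale.Agent.P073
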