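import Vale.Agent.P073.Conv
import Vale.Agent.P073.Shear.Param

/-!
# Means over short segments are continuous in `Lᵖ`
-/

namespace Vale.Agent.P073

open MeasureTheory Metric Set Function Filter
open scoped ContDiff Topology ENNReal

set_option linter.unusedSectionVars false

variable {E : Type} [NormedAddCommGroup E] [InnerProductSpace ℝ E] [FiniteDimensional ℝ E]
  [MeasureSpace E] [BorelSpace E] [(volume : Measure E).IsAddHaarMeasure]
  {F : Type} [NormedAddCommGroup F] [NormedSpace ℝ F]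

/-- A variable shift distorts integrals over `Ω` by a factor of at most two. -/
theorem lintegral_shift_le {Ω : Set E} (hΩ : MeasurableSet Ω) {ρ : E → ℝ}
    (hρ : ContDiff ℝ ∞ ρ) (hgrad : ∀ y, ‖fderiv ℝ ρ y‖ ≤ 1 / 4) {y : E} (hy : ‖y‖ ≤ 1)
    (φ : E → ℝ≥0∞) :
    ∫⁻ x in Ω, φ (x + ρ x • y) ≤ 2 * ∫⁻ x, φ x := by
  set T : E → E := fun x => x + ρ x • y
  have hT : ∀ x, HasFDerivAt T (ContinuousLinearMap.id ℝ E + (fderiv ℝ ρ x).smulRight y) x :=
    fun x => (hasFDerivAt_id x).add (((hρ.differentiable (by simp)) x).hasFDerivAt.smul_const y)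
  have hTi : InjOn T Ω := by
    intro a _ b _ hab
    have h1 := convex_univ.norm_image_sub_le_of_norm_fderiv_le
      (fun w _ => (hρ.differentiable (by simp)) w) (fun w _ => hgrad w)
      (mem_univ b) (mem_univ a)
    have h2 : a - b = (ρ b - ρ a) • y := by
      have : a + ρ a • y = b + ρ b • y := hab
      rw [sub_smul, sub_eq_sub_iff_add_eq_add, this]
      abel
    have h3 : ‖a - b‖ ≤ ‖ρ a - ρ b‖ * 1 := by
      rw [h2, norm_smul, norm_sub_rev]
      exact mul_le_mul_of_nonneg_left hy (norm_nonneg _)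
    exact sub_eq_zero.1 (norm_eq_zero.1 (by linarith [norm_nonneg (a - b)]))
  have h := lintegral_image_eq_lintegral_abs_det_fderiv_mul (volume : Measure E) hΩ
    (fun x _ => (hT x).hasFDerivWithinAt) hTi φ
  have h2 : ∫⁻ x in Ω, φ (T x) ≤ ∫⁻ x in Ω, 2 * (ENNReal.ofReal |(ContinuousLinearMap.id ℝ E +
      (fderiv ℝ ρ x).smulRight y).det| * φ (T x)) := by
    refine lintegral_mono fun x => ?_
    rw [det_id_add_smulRight, ← mul_assoc]
    refine le_mul_of_one_le_left zero_le ?_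
    have h4 : |fderiv ℝ ρ x y| ≤ 1 / 4 := by
      rw [← Real.norm_eq_abs]
      exact ((fderiv ℝ ρ x).le_opNorm y).trans
        ((mul_le_mul (hgrad x) hy (norm_nonneg _) (by norm_num)).trans (by norm_num))
    rw [← ENNReal.ofReal_ofNat, ← ENNReal.ofReal_mul zero_le_two, ENNReal.one_le_ofReal]
    have := le_abs_self (1 + fderiv ℝ ρ x y)
    linarith [(abs_le.1 h4).1]
  rw [lintegral_const_mul' _ _ (by norm_num), ← h] at h2
  exact h2.trans (by gcongr; exact Measure.restrict_le_self)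

/-- The mean of `‖w‖` over the segment `x + [-σ x, σ x] • e`. -/
noncomputable def lineMean (σ : E → ℝ) (e : E) (w : E → F) (x : E) : ℝ≥0∞ :=
  ∫⁻ s, ‖w (x + σ x • (s • e))‖ₑ ∂segMeasure

theorem measurable_lineMean {σ : E → ℝ} (hσ : Continuous σ) (e : E) {w : E → F}
    (hw : StronglyMeasurable w) : Measurable (lineMean σ e w) :=
  Measurable.lintegral_prod_right' (f := fun q : E × ℝ => ‖w (q.1 + σ q.1 • (q.2 • e))‖ₑ)
    ((hw.comp_measurable (measurable_fst.add
      ((hσ.measurable.comp measurable_fst).smul (measurable_snd.smul_const e)))).enorm)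

/-- Means over segments of variable length are bounded in `Lᵖ`. -/
theorem eLpNorm_lineMean_le {Ω : Set E} (hΩ : MeasurableSet Ω) {σ : E → ℝ}
    (hσ : ContDiff ℝ ∞ σ) (hgrad : ∀ y, ‖fderiv ℝ σ y‖ ≤ 1 / 4) {e : E} (he : ‖e‖ ≤ 1)
    {w : E → F} (hw : StronglyMeasurable w) {p : ℝ≥0∞} (hp : 1 ≤ p) (hp' : p ≠ ⊤) :
    eLpNorm (lineMean σ e w) p (volume.restrict Ω) ≤ 2 * eLpNorm w p volume := by
  have hp0 : p ≠ 0 := (zero_lt_one.trans_le hp).ne'
  have hr : 1 ≤ p.toReal := by simpa using ENNReal.toReal_mono hp' hp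
  have hr0 : 0 < p.toReal := by linarith
  have key : ∫⁻ x in Ω, lineMean σ e w x ^ p.toReal ≤ 2 * ∫⁻ x, ‖w x‖ₑ ^ p.toReal := by
    have hwm : ∀ x, StronglyMeasurable fun s : ℝ => w (x + σ x • (s • e)) := fun x =>
      hw.comp_measurable (by fun_prop)
    have h1 : ∀ x, lineMean σ e w x ^ p.toReal ≤
        ∫⁻ s, ‖w (x + σ x • (s • e))‖ₑ ^ p.toReal ∂segMeasure := by
      intro x
      have h2 := eLpNorm_le_eLpNorm_of_exponent_le (μ := segMeasure) hp
        (hwm x).aestronglyMeasurable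
      rw [eLpNorm_one_eq_lintegral_enorm, eLpNorm_eq_lintegral_rpow_enorm_toReal hp0 hp'] at h2
      refine (ENNReal.rpow_le_rpow h2 hr0.le).trans (le_of_eq ?_)
      rw [← ENNReal.rpow_mul, one_div_mul_cancel hr0.ne', ENNReal.rpow_one]
    refine (lintegral_mono h1).trans ?_
    have hmeas : Measurable fun q : E × ℝ => ‖w (q.1 + σ q.1 • (q.2 • e))‖ₑ ^ p.toReal :=
      (hw.comp_measurable (measurable_fst.add
        ((hσ.continuous.measurable.comp measurable_fst).smul
          (measurable_snd.smul_const e)))).enorm.pow_const _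
    rw [lintegral_lintegral_swap hmeas.aemeasurable]
    refine (lintegral_mono_ae (g := fun _ => 2 * ∫⁻ x, ‖w x‖ₑ ^ p.toReal) ?_).trans (by simp)
    filter_upwards [ae_segMeasure_mem] with s hs
    refine lintegral_shift_le hΩ hσ hgrad ?_ fun z => ‖w z‖ₑ ^ p.toReal
    rw [norm_smul, Real.norm_eq_abs]
    exact mul_le_one₀ (abs_le.2 hs) (norm_nonneg _) he
  rw [eLpNorm_eq_lintegral_rpow_enorm_toReal hp0 hp', eLpNorm_eq_lintegral_rpow_enorm_toReal hp0 hp']
  simp only [enorm_eq_self]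
  refine (ENNReal.rpow_le_rpow key (by positivity)).trans ?_
  rw [ENNReal.mul_rpow_of_nonneg _ _ (by positivity)]
  refine mul_le_mul_of_nonneg_right ?_ zero_le
  calc (2 : ℝ≥0∞) ^ (1 / p.toReal) ≤ 2 ^ (1 : ℝ) :=
        ENNReal.rpow_le_rpow_of_exponent_le (by norm_num) (by rw [div_le_one hr0]; exact hr)
    _ = 2 := ENNReal.rpow_one _

/-- The mean of `‖v (x + t • e) - v x‖` over the segment. -/
noncomputable def lineOsc (σ : E → ℝ) (e : E) (v : E → F) (x : E) : ℝ≥0∞ :=
  ∫⁻ s, ‖v (x + σ x • (s • e)) - v x‖ₑ ∂segMeasure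

theorem measurable_lineOsc {σ : E → ℝ} (hσ : Continuous σ) (e : E) {v : E → F}
    (hv : StronglyMeasurable v) : Measurable (lineOsc σ e v) :=
  Measurable.lintegral_prod_right'
    (f := fun q : E × ℝ => ‖v (q.1 + σ q.1 • (q.2 • e)) - v q.1‖ₑ)
    (((hv.comp_measurable (measurable_fst.add
      ((hσ.measurable.comp measurable_fst).smul (measurable_snd.smul_const e)))).sub
        (hv.comp_measurable measurable_fst)).enorm)

theorem lineOsc_le {σ : E → ℝ} {e x : E} (he : ‖e‖ ≤ 1) {v u : E → F} {d : ℝ}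
    (hu : ∀ y : E, ‖y‖ ≤ 1 → ‖u (x + σ x • y) - u x‖ ≤ d) :
    lineOsc σ e v x ≤ ENNReal.ofReal d + (lineMean σ e (v - u) x + ‖(v - u) x‖ₑ) := by
  refine (lintegral_mono_ae (g := fun s => ENNReal.ofReal d +
    (‖(v - u) (x + σ x • (s • e))‖ₑ + ‖(v - u) x‖ₑ)) ?_).trans (le_of_eq ?_)
  · filter_upwards [ae_segMeasure_mem] with s hs
    rw [show v (x + σ x • (s • e)) - v x = (u (x + σ x • (s • e)) - u x) +
      ((v - u) (x + σ x • (s • e)) - (v - u) x) by simp only [Pi.sub_apply]; abel]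
    refine (enorm_add_le _ _).trans (add_le_add ?_ enorm_sub_le)
    rw [← ofReal_norm]
    refine ENNReal.ofReal_le_ofReal (hu _ ?_)
    rw [norm_smul, Real.norm_eq_abs]
    exact mul_le_one₀ (abs_le.2 hs) (norm_nonneg _) he
  · rw [lintegral_add_left measurable_const, lintegral_add_right _ measurable_const,
      lintegral_const, lintegral_const, measure_univ, mul_one, mul_one, lineMean]

/-- The mean oscillation over shrinking segments tends to zero in `Lᵖ`. -/
theorem tendsto_lineOsc {Ω : Set E} (hΩ : MeasurableSet Ω) (hΩb : Bornology.IsBounded Ω)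
    {ρ : E → ℝ} (hρ : ContDiff ℝ ∞ ρ) (hgrad : ∀ y, ‖fderiv ℝ ρ y‖ ≤ 1 / 4)
    (hpos : ∀ x ∈ Ω, 0 < ρ x) (hle : ∀ y, ρ y ≤ 1) {e : E} (he : ‖e‖ ≤ 1) {v : E → F}
    (hv : StronglyMeasurable v)
    {p : ℝ≥0∞} (hp : 1 ≤ p) (hp' : p ≠ ⊤) (hvp : MemLp v p) :
    Tendsto (fun ε : ℝ => eLpNorm (lineOsc (fun y => ε * ρ y) e v) p (volume.restrict Ω))
      (𝓝[>] 0) (𝓝 0) := by
  rw [ENNReal.tendsto_nhds_zero]
  intro δ hδ
  rcases eq_or_ne δ ⊤ with rfl | hδt
  · exact Eventually.of_forall fun _ => le_top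
  obtain ⟨u, hus, huv, huc, hup⟩ := hvp.exists_hasCompactSupport_eLpNorm_sub_le hp'
    (show δ / 8 ≠ 0 by simp [hδ.ne'])
  set c : ℝ≥0∞ := (volume.restrict Ω) univ ^ p.toReal⁻¹ with hcdef
  have hct : c ≠ ⊤ := by
    refine ENNReal.rpow_ne_top_of_nonneg (by positivity) ?_
    rw [Measure.restrict_apply_univ]
    exact hΩb.measure_lt_top.ne
  obtain ⟨d, hd, hdc⟩ : ∃ d : ℝ, 0 < d ∧ c * ENNReal.ofReal d ≤ δ / 2 := by
    have hδ2 : δ / 2 ≠ ⊤ := ENNReal.div_ne_top hδt (by norm_num)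
    have hδ20 : 0 < (δ / 2).toReal := ENNReal.toReal_pos (by simp [hδ.ne']) hδ2
    refine ⟨(δ / 2).toReal / (c.toReal + 1), div_pos hδ20 (by positivity), ?_⟩
    calc c * ENNReal.ofReal ((δ / 2).toReal / (c.toReal + 1))
        = ENNReal.ofReal (c.toReal * ((δ / 2).toReal / (c.toReal + 1))) := by
          rw [ENNReal.ofReal_mul ENNReal.toReal_nonneg, ENNReal.ofReal_toReal hct]
      _ ≤ ENNReal.ofReal (δ / 2).toReal := by
          refine ENNReal.ofReal_le_ofReal ?_
          rw [← mul_div_assoc, div_le_iff₀ (by positivity)]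
          nlinarith [ENNReal.toReal_nonneg (a := c)]
      _ = δ / 2 := ENNReal.ofReal_toReal hδ2
  obtain ⟨θ, hθ, hu⟩ := Metric.uniformContinuous_iff.1
    (huc.uniformContinuous_of_tendsto_cocompact hus.is_zero_at_infty) d hd
  filter_upwards [Ioo_mem_nhdsGT (lt_min one_pos hθ)] with ε hε
  obtain ⟨hε0, hε1⟩ := hε
  rw [lt_min_iff] at hε1
  set σ := fun y => ε * ρ y
  have hσ : ContDiff ℝ ∞ σ := contDiff_const.mul hρ
  have hσg : ∀ y, ‖fderiv ℝ σ y‖ ≤ 1 / 4 := fun y => by
    rw [fderiv_const_mul ((hρ.differentiable (by simp)) y), norm_smul, Real.norm_of_nonneg hε0.le]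
    nlinarith [hgrad y, norm_nonneg (fderiv ℝ ρ y), hε1.1]
  set w := v - u with hw
  have hwm : StronglyMeasurable w := hv.sub huc.stronglyMeasurable
  have hb : ∀ x ∈ Ω, lineOsc σ e v x ≤ ENNReal.ofReal d + (lineMean σ e w x + ‖w x‖ₑ) := by
    intro x hx
    refine lineOsc_le he (fun y hy => ?_)
    have h1 : dist (u (x + σ x • y)) (u x) < d := by
      refine hu ?_
      rw [dist_eq_norm, add_sub_cancel_left, norm_smul,
        Real.norm_of_nonneg (mul_pos hε0 (hpos x hx)).le]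
      exact (mul_le_of_le_one_right (mul_pos hε0 (hpos x hx)).le hy).trans_lt
        ((mul_le_of_le_one_right hε0.le (hle x)).trans_lt hε1.2)
    rw [← dist_eq_norm]
    exact h1.le
  refine (eLpNorm_mono_enorm_ae (ae_restrict_of_forall_mem hΩ fun x hx => show ‖lineOsc σ e v x‖ₑ ≤
    ‖ENNReal.ofReal d + (lineMean σ e w x + ‖w x‖ₑ)‖ₑ from hb x hx)).trans ?_
  have m1 : AEStronglyMeasurable (lineMean σ e w) (volume.restrict Ω) :=
    (measurable_lineMean hσ.continuous e hwm).stronglyMeasurable.aestronglyMeasurable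
  have m2 : AEStronglyMeasurable (fun x => ‖w x‖ₑ) (volume.restrict Ω) :=
    hwm.enorm.stronglyMeasurable.aestronglyMeasurable
  have key1 : eLpNorm ((fun _ : E => ENNReal.ofReal d) + (lineMean σ e w + fun x => ‖w x‖ₑ)) p
      (volume.restrict Ω) ≤ eLpNorm (fun _ : E => ENNReal.ofReal d) p (volume.restrict Ω) +
        eLpNorm (lineMean σ e w + fun x => ‖w x‖ₑ) p (volume.restrict Ω) :=
    eLpNorm_add_le aestronglyMeasurable_const
      ((measurable_lineMean hσ.continuous e hwm).add hwm.enorm).stronglyMeasurable.aestronglyMeasurable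
      hp
  refine key1.trans ?_
  refine (add_le_add ?_ ((eLpNorm_add_le m1 m2 hp).trans (add_le_add
      ((eLpNorm_lineMean_le hΩ hσ hσg he hwm hp hp').trans (mul_le_mul_of_nonneg_left huv zero_le)) ?_))).trans
    (b := δ / 2 + (2 * (δ / 8) + δ / 8)) ?_
  · rcases eq_or_ne (volume.restrict Ω) 0 with h0 | h0
    · simp [h0]
    rw [eLpNorm_const _ (zero_lt_one.trans_le hp).ne' h0, enorm_eq_self, mul_comm, one_div]
    exact hdc
  · rw [eLpNorm_enorm]
    exact (eLpNorm_mono_measure _ Measure.restrict_le_self).trans huv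
  · calc δ / 2 + (2 * (δ / 8) + δ / 8) ≤ δ / 2 + (2 * (δ / 8) + 2 * (δ / 8)) := by
          gcongr; exact le_mul_of_one_le_left zero_le (by norm_num)
      _ = δ / 2 + δ / 2 := by
          rw [← two_mul, ← mul_assoc]
          congr 1
          rw [ENNReal.div_eq_inv_mul, ENNReal.div_eq_inv_mul, ← mul_assoc]
          congr 1
          rw [show (8 : ℝ≥0∞) = 4 * 2 by norm_num, ENNReal.mul_inv (by norm_num) (by norm_num),
            show (2 : ℝ≥0∞) * 2 = 4 by norm_num, ← mul_assoc,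
            ENNReal.mul_inv_cancel (by norm_num) (by norm_num), one_mul]
      _ = δ := ENNReal.add_halves δ

end Vale.Agent.P073
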