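import Vale.Agent.P073.Shear.Main

/-!
# Either orientation along the direction of the shear
-/

namespace Vale.Agent.P073

open MeasureTheory Metric Set Function Filter
open scoped ContDiff Topology ENNReal RealInnerProductSpace

set_option linter.unusedSectionVars false

variable {E : Type} [NormedAddCommGroup E] [InnerProductSpace ℝ E] [FiniteDimensional ℝ E]
  [MeasureSpace E] [BorelSpace E] [(volume : Measure E).IsAddHaarMeasure] [Nontrivial E]

theorem postcomp_memLp {L : E ≃L[ℝ] E} {Ω : Set E} {p : ℝ≥0∞} {f : E → E} {G : E → E →L[ℝ] E}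
    (hS : HasSobolevDeriv Ω p f G) :
    HasSobolevDeriv Ω p (fun x => L (f x)) fun x => (L : E →L[ℝ] E).comp (G x) := by
  refine ⟨(L : E →L[ℝ] E).comp_memLp' hS.1,
    (ContinuousLinearMap.compL ℝ E E E (L : E →L[ℝ] E)).comp_memLp' hS.2.1,
    fun ψ h1 h2 h3 h => ?_⟩
  simp only [ContinuousLinearMap.comp_apply, ContinuousLinearEquiv.coe_coe, ← L.map_smul,
    ContinuousLinearEquiv.integral_comp_comm]
  rw [hS.2.2 ψ h1 h2 h3 h, map_neg]

/-- Approximability is preserved by a linear automorphism of the target. -/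
theorem isApproximable_postcomp (L : E ≃L[ℝ] E) {Ω Λ : Set E} (hΩ : IsOpen Ω) {p : ℝ≥0∞}
    {f : E → E} {G : E → E →L[ℝ] E} (h : IsDiffeoApproximable Ω Λ p f G) :
    IsDiffeoApproximable Ω (L '' Λ) p (fun x => L (f x)) fun x => (L : E →L[ℝ] E).comp (G x) := by
  intro ε hε
  set C : NNReal := ‖(L : E →L[ℝ] E)‖₊ + 1
  have hC : (C : ℝ≥0∞) ≠ 0 := by simp [C]
  obtain ⟨g, ⟨hbij, hs, g', hinv, hs'⟩, hlt⟩ := h (ε / C) (ENNReal.div_pos hε.ne' (by simp))
  refine ⟨fun x => L (g x), ⟨L.injective.injOn.bijOn_image.comp hbij, L.contDiff.comp_contDiffOn hs,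
    fun w => g' (L.symm w), ⟨fun x hx => by simp [hinv.1 hx], ?_⟩,
    hs'.comp L.symm.contDiff.contDiffOn ?_⟩, ?_⟩
  · rintro _ ⟨v, hv, rfl⟩
    simp [hinv.2 hv]
  · rintro _ ⟨v, hv, rfl⟩
    simpa using hv
  have hle : ∀ v : E, ‖L v‖₊ ≤ C * ‖v‖₊ := fun v =>
    ((L : E →L[ℝ] E).le_opNNNorm v).trans (mul_le_mul_of_nonneg_right le_self_add zero_le)
  have h1 : eLpNorm (fun x => L (g x) - L (f x)) p (volume.restrict Ω) ≤
      C * eLpNorm (fun x => g x - f x) p (volume.restrict Ω) := by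
    refine eLpNorm_le_nnreal_smul_eLpNorm_of_ae_le_mul (Eventually.of_forall fun x => ?_) p
    rw [← map_sub]; exact hle _
  have h2 : eLpNorm (fun x => fderiv ℝ (fun x => L (g x)) x - (L : E →L[ℝ] E).comp (G x)) p
      (volume.restrict Ω) ≤ C * eLpNorm (fun x => fderiv ℝ g x - G x) p (volume.restrict Ω) := by
    refine eLpNorm_le_nnreal_smul_eLpNorm_of_ae_le_mul (ae_restrict_of_forall_mem hΩ.measurableSet
      fun x hx => ?_) p
    have hd : HasFDerivAt (fun x => L (g x)) ((L : E →L[ℝ] E).comp (fderiv ℝ g x)) x :=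
      L.hasFDerivAt.comp x
        ((hs.differentiableOn (by simp)).differentiableAt (hΩ.mem_nhds hx)).hasFDerivAt
    rw [hd.fderiv, ← ContinuousLinearMap.comp_sub]
    exact (ContinuousLinearMap.opNNNorm_comp_le _ _).trans
      (mul_le_mul_of_nonneg_right le_self_add zero_le)
  refine (add_le_add h1 h2).trans_lt ?_
  rw [← mul_add]
  refine (ENNReal.mul_lt_mul_right hC (by simp) hlt).trans_eq ?_
  rw [ENNReal.mul_div_cancel hC (by simp)]

/-- A homeomorphism which moves points only parallel to one line is approximable. -/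
theorem isApproximable_of_shear {Ω Λ : Set E} (hΩ : IsOpen Ω) (hΩc : IsConnected Ω)
    (hΩb : Bornology.IsBounded Ω) (hΛ : IsOpen Λ) (hΛb : Bornology.IsBounded Λ) {f g : E → E}
    (hbij : BijOn f Ω Λ) (hinv : InvOn g f Ω Λ) (hfc : ContinuousOn f Ω) (hgc : ContinuousOn g Λ)
    {p : ℝ≥0∞} (hp : 1 ≤ p) (hp' : p ≠ ⊤) {G : E → E →L[ℝ] E} (hS : HasSobolevDeriv Ω p f G)
    {e₀ : E} (he₀ : e₀ ≠ 0) (hsh₀ : ∀ x ∈ Ω, ∃ a : ℝ, f x = x + a • e₀) :
    IsDiffeoApproximable Ω Λ p f G := by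
  set e := ‖e₀‖⁻¹ • e₀ with he_def
  have he : ‖e‖ = 1 := norm_smul_inv_norm he₀
  have hsh : ∀ x ∈ Ω, ∃ a : ℝ, f x = x + a • e := fun x hx => by
    obtain ⟨a, ha⟩ := hsh₀ x hx
    refine ⟨a * ‖e₀‖, ?_⟩
    rw [ha, he_def, smul_smul, mul_assoc, mul_inv_cancel₀ (norm_ne_zero_iff.2 he₀), mul_one]
  set h : E → ℝ → ℝ := fun x b => ⟪e, f (x + b • e)⟫ with hh
  have hmem : ∀ x r, ∀ b ∈ Icc (-r) r, x + b • e ∈ closedBall x r := fun x r b hb => by
    rw [mem_closedBall, dist_eq_norm, add_sub_cancel_left, norm_smul, he, mul_one, Real.norm_eq_abs]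
    exact abs_le.2 hb
  have hinjh : ∀ x r, closedBall x r ⊆ Ω → InjOn (h x) (Icc (-r) r) := by
    intro x r hr a ha b hb hab
    obtain ⟨α, hα⟩ := hsh _ (hr (hmem x r a ha))
    obtain ⟨β, hβ⟩ := hsh _ (hr (hmem x r b hb))
    have hab' : ⟪e, f (x + a • e)⟫ = ⟪e, f (x + b • e)⟫ := hab
    rw [hα, hβ] at hab'
    simp only [inner_add_right, inner_smul_right, real_inner_self_eq_norm_sq, he] at hab'
    have : f (x + a • e) = f (x + b • e) := by
      rw [hα, hβ, add_assoc, add_assoc, ← add_smul, ← add_smul]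
      congr 2
      linarith
    exact smul_left_injective ℝ (norm_ne_zero_iff.1 (by rw [he]; exact one_ne_zero))
      (add_left_cancel (hbij.injOn (hr (hmem x r a ha)) (hr (hmem x r b hb)) this))
  have hhc : ∀ x r, closedBall x r ⊆ Ω → ContinuousOn (h x) (Icc (-r) r) := fun x r hr =>
    continuousOn_const.inner (hfc.comp (Continuous.continuousOn (by fun_prop))
      fun b hb => hr (hmem x r b hb))
  have hor : ∀ x r, 0 ≤ r → closedBall x r ⊆ Ω →
      StrictMonoOn (h x) (Icc (-r) r) ∨ StrictAntiOn (h x) (Icc (-r) r) := fun x r h0 hr =>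
    (hhc x r hr).strictMonoOn_of_injOn_Icc' (by linarith) (hinjh x r hr)
  set U : Set E := {x | ∃ r > 0, closedBall x r ⊆ Ω ∧ h x (-r) < h x r}
  set V : Set E := {x | ∃ r > 0, closedBall x r ⊆ Ω ∧ h x r < h x (-r)}
  have hopen : ∀ s : ℝ, IsOpen {x | ∃ r > 0, closedBall x r ⊆ Ω ∧ s * h x (-r) < s * h x r} := by
    intro s
    rw [isOpen_iff_mem_nhds]
    rintro x ⟨r, hr, hsub, hlt⟩
    obtain ⟨η, hη, hη'⟩ := (isCompact_closedBall x r).exists_cthickening_subset_open hΩ hsub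
    have hc : ∀ b, |b| ≤ r → ContinuousAt (fun y => h y b) x := fun b hb =>
      continuousAt_const.inner ((hfc.continuousAt (hΩ.mem_nhds
        (hsub (hmem x r b (abs_le.1 hb))))).comp (f := fun y => y + b • e) (by fun_prop))
    filter_upwards [ball_mem_nhds x hη,
      ((hc (-r) (by rw [abs_neg, abs_of_pos hr])).const_smul s).eventually_lt
        ((hc r (abs_of_pos hr).le).const_smul s) hlt] with y hy hy'
    refine ⟨r, hr, fun z hz => hη' ?_, hy'⟩
    refine mem_cthickening_of_dist_le z (z + (x - y)) η _ ?_ ?_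
    · rw [mem_closedBall, dist_eq_norm] at hz ⊢
      rwa [show z + (x - y) - x = z - y by abel]
    · rw [dist_eq_norm, show z - (z + (x - y)) = y - x by abel, ← dist_eq_norm]
      exact (mem_ball.1 hy).le
  have hUo : IsOpen U := by simpa using hopen 1
  have hVo : IsOpen V := by simpa using hopen (-1)
  have hsub : Ω ⊆ U ∪ V := fun x hx => by
    obtain ⟨r, hr, hsub⟩ := nhds_basis_closedBall.mem_iff.1 (hΩ.mem_nhds hx)
    have m1 : -r ∈ Icc (-r) r := ⟨le_rfl, by linarith⟩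
    have m2 : r ∈ Icc (-r) r := ⟨by linarith, le_rfl⟩
    rcases hor x r hr.le hsub with hm | hm
    · exact Or.inl ⟨r, hr, hsub, hm m1 m2 (by linarith)⟩
    · exact Or.inr ⟨r, hr, hsub, hm m1 m2 (by linarith)⟩
  have hdis : ∀ x, x ∈ U → x ∈ V → False := by
    rintro x ⟨r, hr, hs, hlt⟩ ⟨t, ht, ht', hlt'⟩
    have m1 : -r ∈ Icc (-r) r := ⟨le_rfl, by linarith⟩
    have m2 : r ∈ Icc (-r) r := ⟨by linarith, le_rfl⟩
    have n1 : -t ∈ Icc (-t) t := ⟨le_rfl, by linarith⟩
    have n2 : t ∈ Icc (-t) t := ⟨by linarith, le_rfl⟩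
    have e1 := ((hor x r hr.le hs).resolve_right fun hm => (hm m1 m2 (by linarith)).not_gt hlt)
    have e2 := ((hor x t ht.le ht').resolve_left fun hm => (hm n1 n2 (by linarith)).not_gt hlt')
    obtain ⟨u, hu, hur, hut⟩ : ∃ u > 0, u ≤ r ∧ u ≤ t :=
      ⟨min r t, lt_min hr ht, min_le_left _ _, min_le_right _ _⟩
    exact (e1 (a := -u) (b := u) ⟨by linarith, by linarith⟩ ⟨by linarith, by linarith⟩
      (by linarith)).not_gt
      (e2 (a := -u) (b := u) ⟨by linarith, by linarith⟩ ⟨by linarith, by linarith⟩ (by linarith))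
  have hcases : (∀ x ∈ Ω, x ∉ V) ∨ ∀ x ∈ Ω, x ∉ U := by
    by_contra hc
    push Not at hc
    obtain ⟨⟨x, hx, hxV⟩, y, hy, hyU⟩ := hc
    obtain ⟨z, -, hzU, hzV⟩ := hΩc.2 U V hUo hVo hsub ⟨y, hy, hyU⟩ ⟨x, hx, hxV⟩
    exact hdis z hzU hzV
  rcases hcases with hc | hc
  · refine isApproximable_of_shear_increasing hΩ hΩc hΩb hΛ hΛb hbij hinv hfc hgc hp hp' hS he hsh
      fun x r hr => ?_
    rcases le_or_gt r 0 with h0 | h0
    · exact ((subsingleton_Icc_of_ge (by linarith)).strictMonoOn _)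
    refine (hor x r h0.le hr).resolve_right fun hm => hc x (hr (mem_closedBall_self h0.le))
      ⟨r, h0, hr, hm ⟨le_rfl, by linarith⟩ ⟨by linarith, le_rfl⟩ (by linarith)⟩
  -- decreasing: reflect the target
  set R : E ≃L[ℝ] E := (Submodule.reflection (ℝ ∙ e)ᗮ).toContinuousLinearEquiv
  have hR : ∀ v, R v = v - (2 * ⟪e, v⟫) • e := fun v => by
    show Submodule.reflection (ℝ ∙ e)ᗮ v = _
    rw [Submodule.reflection_orthogonal]
    simp [Submodule.reflection_apply, Submodule.starProjection_singleton, he, smul_smul,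
      two_mul, add_smul, two_smul]
  have hRR : ∀ v, R (R v) = v := fun v => Submodule.reflection_reflection _ v
  have hRi : ∀ v, ⟪e, R v⟫ = -⟪e, v⟫ := fun v => by
    rw [hR, inner_sub_right, inner_smul_right, real_inner_self_eq_norm_sq, he]; ring
  have key : IsDiffeoApproximable Ω (R '' Λ) p (fun x => R (f x))
      fun x => (R : E →L[ℝ] E).comp (G x) :=
    isApproximable_of_shear_increasing hΩ hΩc hΩb (R.isOpenMap _ hΛ)
      ((R : E →L[ℝ] E).lipschitz.isBounded_image hΛb) (R.injective.injOn.bijOn_image.comp hbij)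
      (g := fun w => g (R.symm w))
      ⟨fun x hx => by simp [hinv.1 hx], by rintro _ ⟨v, hv, rfl⟩; simp [hinv.2 hv]⟩
      (R.continuous.comp_continuousOn hfc)
      (hgc.comp R.symm.continuous.continuousOn (by rintro _ ⟨v, hv, rfl⟩; simpa using hv))
      hp hp' (postcomp_memLp hS) he
      (fun x hx => by
        obtain ⟨a, ha⟩ := hsh x hx
        exact ⟨a - 2 * ⟪e, f x⟫, by simp only [comp_apply]; rw [hR, sub_smul, ← add_sub_assoc, ← ha]⟩)
      fun x r hr => by
        rcases le_or_gt r 0 with h0 | h0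
        · exact ((subsingleton_Icc_of_ge (by linarith)).strictMonoOn _)
        have hm := (hor x r h0.le hr).resolve_left fun hm =>
          hc x (hr (mem_closedBall_self h0.le))
            ⟨r, h0, hr, hm ⟨le_rfl, by linarith⟩ ⟨by linarith, le_rfl⟩ (by linarith)⟩
        intro a ha b hb hab
        simp only [comp_apply, hRi]
        exact neg_lt_neg (hm ha hb hab)
  have := isApproximable_postcomp R hΩ key
  convert this using 1
  · rw [image_image]; simp [hRR]
  · funext x; rw [hRR]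
  · funext x
    ext v
    simp [hRR]

end Vale.Agent.P073
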